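/-!
# Row 242 (S0375): blueprint

`RCD(K,N)` and `Hess F ≤ G` weakly imply `(F ∘ σ)'' ≤ ℓ² G ∘ σ` along every geodesic.  Files of `R242/`:

* `A*` curves, upper speed, lemmas on the line, cutoffs, `L²` toolkit, test plans.
* `B*`, `C*` minimal weak upper gradients: existence, chain rule, locality, pointwise parallelogram
  identity, bilinearity of `Γ`, Leibniz rules, closedness of `W^{1,2}`.
* `D*` closed forms on a Hilbert space: resolvent, Yosida approximation, semigroup.
* `E*` the heat flow of `∫ Γ dμ`, Markov property, Laplacian calculus, Davies-Gaffney estimates.
* `F*` consequences of `CD(K,N)`: doubling, properness, exponential growth, midpoint entropy bound.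
* `G*` transport cost, gluing, compactness, Kantorovich potentials, entropy.
* `H*` geodesic plans with bounded compression and convex entropy (Rajala).
* `I*` horizontal-vertical derivatives, the key inequality; `J*` contraction along the heat flow;
  `K*` the gradient estimate (Kuwada duality).
* `L*` Sobolev-to-Lipschitz, Bochner inequality, test functions.
* `M*` the weighted measure `exp (-(B - F)/ε) m` has Bochner bound `-κ - G/ε`.
* `N*` log-Harnack inequality against Davies-Gaffney, `ε → 0`: `F y₀ + F y₁ - 2 F x ≤ c ℓ²`.
* `O1`, `Main` second differences give the distributional inequality.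
-/
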